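import Vale.Agent.P253W.Slice
import Vale.Agent.P253Y.H2.Defs

/-!
# P253W: the interfaces of sections 0, 3, 4, 5 (see notes/P253/h36_proof.md)

`d t` is the distance of the metric at time `t` (always used with `d = A.d`, `A : Fam F`).
-/

open scoped Manifold ContDiff Bundle ENNReal Topology ComplexConjugate ComplexOrder Matrix
open Bundle IsManifold MeasureTheory Set Metric Filter Vale.Agent.P253.Mfd Vale.Agent.P253Z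
open Vale.Agent.P272.K (Cm dz dzb cHess jacM Chart)
open Vale.Agent.P253.R2.H451 (ContPsh WeakLevi levi2)

noncomputable section

namespace Vale.Agent.P253W

theorem qf_pb {n : ℕ} (J A : Mx n) (v : Cm n) : qf (pb J A) v = qf A (J *ᵥ v) := by
  have h : J.map (starRingEnd ℂ) *ᵥ star v = star (J *ᵥ v) := by
    funext i
    simp [Matrix.mulVec, dotProduct]
  unfold qf pb
  rw [← Matrix.mulVec_mulVec, ← Matrix.mulVec_mulVec, h, Matrix.dotProduct_mulVec,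
    Matrix.vecMul_transpose]

/-- `Σ |c_i|² |τ|^(-2 k_i)` -/
def wn {n : ℕ} (k : Fin n → ℝ) (τ : ℂ) (c : Cm n) : ℝ := ∑ i, ‖c i‖ ^ 2 * ‖τ‖ ^ (-(2 * k i))

/-- the closed annulus -/
def ann (r r' : ℝ) : Set ℂ := {τ | r ≤ ‖τ‖ ∧ ‖τ‖ ≤ r'}

variable {n : ℕ} {M : Type} [MetricSpace M] [ChartedSpace (Cm n) M]

/-- A tangent vector at `x` is given by its components `v` in the preferred chart at `x`. These are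
its components in the chart `e`. -/
def tv (e : Chart n M) (x : M) (v : Cm n) : Cm n := jacM (pc n x) e x *ᵥ v

variable (n) in
/-- holomorphic curves -/
abbrev H1 (f : ℂ → M) (S : Set ℂ) : Prop := MDifferentiableOn 𝓘(ℂ, ℂ) 𝓘(ℂ, Cm n) f S

/-- holomorphic maps from `ℂⁿ` -/
abbrev Hn (Ψ : Cm n → M) (S : Set (Cm n)) : Prop :=
  MDifferentiableOn 𝓘(ℂ, Cm n) 𝓘(ℂ, Cm n) Ψ S

variable (n) in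
/-- the velocity of a holomorphic curve -/
def d1 (f : ℂ → M) (τ : ℂ) : Cm n := deriv (fun s => pc n (f τ) (f s)) τ

/-- the differential of a holomorphic map -/
def dn (Ψ : Cm n → M) (y v : Cm n) : Cm n := jm Ψ y *ᵥ v

variable (n) in
/-- the differential of a holomorphic function as a covector -/
def da (a : M → ℂ) (x : M) : Cm n := fun j => dz j (fun y => a ((pc n x).symm y)) (pc n x x)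

/-- `θ` is a holomorphic vector field along `f` -/
def Al (f : ℂ → M) (θ : ℂ → Cm n) (S : Set ℂ) : Prop :=
  ∀ e : Chart n M, Hc e → DifferentiableOn ℂ (fun τ => tv e (f τ) (θ τ)) (S ∩ f ⁻¹' e.source)

variable (n M) in
/-- **KPE**: discs whose boundaries converge converge -/
def KPE : Prop := ∀ (f : ℕ → ℂ → M) (g : ℂ → M) (r r' R : ℝ), 0 < r → r < r' → r' < R →
  (∀ k, H1 n (f k) (ball 0 R)) → TendstoUniformlyOn f g atTop (ann r r') →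
  ∃ g', TendstoUniformlyOn f g' atTop (closedBall 0 r')

variable [RiemannianBundle (fun x : M => TangentSpace 𝓘(ℝ, Cm n) x)]

namespace Flow

variable (F : Flow n M)

/-- `|v|²_t` -/
def nv (t : ℝ) (x : M) (v : Cm n) : ℝ := qf (F.gx t x) v

/-- `Ric_t(v, v̄)` -/
def rc (t : ℝ) (x : M) (v : Cm n) : ℝ := qf (F.ρx t x) v

theorem qf_pull (Ψ : Cm n → M) (t : ℝ) (y v : Cm n) :
    qf (F.pull Ψ t y) v = F.nv t (Ψ y) (dn Ψ y v) := qf_pb _ _ _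

/-- the Jacobian `dz_1 ∧ … ∧ dz_n / Ω` -/
def jc (z : Fin n → M → ℂ) (x : M) : ℂ := (Matrix.of fun i => da n (z i) x).det / F.Ω x

/-- the barrier with any centre (blocks F and T) -/
def YS : Prop := ∀ (q : M) (S a b : ℝ), 0 < S → 0 < a → a ≤ 1 / 4 →
  (∀ x, S * F.u 0 x ≤ a * (1 + dist x q) ^ 2 + b) → ∀ t, 0 ≤ t → ∀ x,
    F.ψ t x + (S - t) * F.u t x ≤ n * t + 6 * a * (1 + dist x q) ^ 2 + b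

/-- tame plurisubharmonic functions -/
def Tm (ga : ℝ → ℝ) (φ : M → ℝ) : Prop := ContPsh (Cm n) φ ∧ ∃ C : ℝ, ∀ x, φ x ≤ C * ga (F.r x)

/-- **KPW**: normal families of discs -/
def KPW : Prop := ∀ (f : ℕ → ℂ → M) (x : M) (z : Fin n → M → ℂ) (R C : ℝ), 0 < R →
  (∀ k, H1 n (f k) (ball 0 R)) → Tendsto (fun k => f k 0) atTop (𝓝 x) →
  (∀ i, IsSec n 0 (z i)) → F.jc z x ≠ 0 →
  (∀ k i, ∀ τ ∈ ball (0 : ℂ) R, ‖z i (f k τ)‖ ≤ C ∧ F.H 0 (f k τ) (da n (z i) (f k τ)) ≤ C) →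
  ∃ (s : ℕ → ℕ) (g : ℂ → M), StrictMono s ∧
    TendstoLocallyUniformlyOn (fun k => f (s k)) g atTop (ball 0 R)

/-- the area of `f` on the disc of radius `s` -/
def ar (f : ℂ → M) (s : ℝ) : ℝ≥0∞ :=
  ∫⁻ τ in ball (0 : ℂ) s, ENNReal.ofReal (F.nv 0 (f τ) (d1 n f τ))

/-- **KPA** (0.5, block T): discs of bounded area whose boundaries converge converge -/
def KPA : Prop := ∀ (f : ℕ → ℂ → M) (g : ℂ → M) (r r' R C : ℝ), 0 < r → r < r' → r' < R →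
  (∀ k, H1 n (f k) (ball 0 R)) → TendstoUniformlyOn f g atTop (ann r r') →
  (∀ k, F.ar (f k) r ≤ ENNReal.ofReal C) →
  ∃ g', TendstoUniformlyOn f g' atTop (closedBall 0 r')

/-- **AREA** (3.3, block V) -/
def AREA : Prop := ∀ (f : ℕ → ℂ → M) (g : ℂ → M) (r r' R : ℝ), 0 < r → r < r' → r' < R →
  (∀ k, H1 n (f k) (ball 0 R)) → TendstoUniformlyOn f g atTop (ann r r') →
  ∃ C : ℝ, ∀ k, F.ar (f k) r ≤ ENNReal.ofReal C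

theorem kpe (h1 : F.KPA) (h2 : F.AREA) : KPE n M := fun f g r r' R a b c d e => by
  obtain ⟨C, hC⟩ := h2 f g r r' R a b c d e
  exact h1 f g r r' R C a b c d e hC

/-- **TL** (3.3, block V): a disc with a tiny boundary is tiny -/
def TL : Prop := ∃ c : ℝ, 0 < c ∧ ∀ (t l L σ : ℝ) (Ψ : Cm n → M) (f : ℂ → M) (y : ℂ → Cm n),
  0 < t → 0 < l → 0 < σ → σ ≤ 1 / 4 → L * σ ^ 2 ≤ c * l → Hn Ψ (ball 0 1) → InjOn Ψ (ball 0 1) →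
  (∀ w ∈ ball (0 : Cm n) 1, ∀ v, l * ‖v‖ ^ 2 ≤ F.nv t (Ψ w) (dn Ψ w v) ∧
    F.nv t (Ψ w) (dn Ψ w v) ≤ L * ‖v‖ ^ 2) →
  H1 n f (ball 0 3) → DifferentiableOn ℂ y {τ | 1 / 3 < ‖τ‖ ∧ ‖τ‖ < 3} →
  (∀ τ : ℂ, 1 / 3 < ‖τ‖ → ‖τ‖ < 3 → ‖y τ‖ ≤ σ ∧ f τ = Ψ (y τ)) →
  ∀ τ ∈ closedBall (0 : ℂ) 1, f τ ∈ Ψ '' closedBall 0 (1 / 2)

variable [MeasurableSpace M]

/-- the tame algebra (output of block T) -/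
structure TA (μ : Measure M) where
  ga : ℝ → ℝ
  ga_mono : Monotone ga
  ga_one : ∀ s, 1 ≤ ga s
  ga_log : ∀ s, 0 ≤ s → Real.log (1 + s) ≤ ga s
  ga_add : ∃ C : ℝ, ∀ s t, 0 ≤ s → 0 ≤ t → ga (s + t) ≤ ga s + C * t
  ga_two : ∃ C : ℝ, ∀ s, 0 ≤ s → ga (2 * s) ≤ C * ga s
  ga_sub : ∃ C : ℝ, ∀ s t, 1 ≤ s → s ≤ t → ga t * s ≤ C * ga s * t
  A : Subalgebra ℂ (M → ℂ)
  mem : ∀ a, a ∈ A ↔ IsSec n 0 a ∧ ∃ C : ℝ, ∀ x, ‖a x‖ ≤ Real.exp (C * ga (F.r x))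
  eta : ∀ x, ∃ z : Fin n → M → ℂ, (∀ i, z i ∈ A) ∧ F.jc z x ≠ 0
  sep : ∀ x y, x ≠ y → ∃ a ∈ A, a x ≠ a y
  jac : ∀ z : Fin n → M → ℂ, (∀ i, z i ∈ A) → F.jc z ∈ A
  tdz : ∀ a ∈ A, F.Tm ga fun x => Real.log (max (F.H 0 x (da n a x)) 1)
  u0 : F.Tm ga (F.u 0)
  trd : ∀ a : Fin (n + 1) → M → ℂ, (∀ i, a i ∈ A) → ∃ P : MvPolynomial (Fin (n + 1)) ℂ, P ≠ 0 ∧
    ∀ x, MvPolynomial.eval (fun i => a i x) P = 0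
  z : Fin n → M → ℂ
  Q : MvPolynomial (Fin n) ℂ
  z_mem : ∀ i, z i ∈ A
  Q_ne : ∃ x, MvPolynomial.eval (fun i => z i x) Q ≠ 0
  z_et : ∀ x, MvPolynomial.eval (fun i => z i x) Q ≠ 0 → F.jc z x ≠ 0
  log : ∀ φ, F.Tm ga φ → ∃ C N N' : ℝ, 0 ≤ N ∧ 0 ≤ N' ∧ ∀ x,
    MvPolynomial.eval (fun i => z i x) Q ≠ 0 → φ x ≤ C + N * Real.log (1 + ‖fun i => z i x‖) -
      N' * Real.log ‖MvPolynomial.eval (fun i => z i x) Q‖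
  l2r : ∃ (m : ℕ) (g₀ : M → ℂ) (g : Fin n → M → ℂ), 1 ≤ m ∧ g₀ ∈ A ∧ g₀ ≠ 0 ∧ (∀ i, g i ∈ A) ∧
    ∫⁻ x, ENNReal.ofReal (‖g₀ x‖ ^ 2 * Real.exp (-(m * F.u 0 x))) ∂μ < ⊤ ∧
    (∀ i, ∫⁻ x, ENNReal.ofReal (‖g i x‖ ^ 2 * Real.exp (-(m * F.u 0 x))) ∂μ < ⊤) ∧
    ∀ a ∈ A, ∃ R : Polynomial (MvPolynomial (Fin n) ℂ), R ≠ 0 ∧
      (∃ x, g₀ x ≠ 0 ∧ MvPolynomial.eval (fun i => g i x / g₀ x) R.leadingCoeff ≠ 0) ∧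
      ∀ x, g₀ x ≠ 0 → (R.map (MvPolynomial.eval fun i => g i x / g₀ x)).eval (a x) = 0
  kpa : F.KPA
  kpw : KPE n M → F.KPW
  fin : ∀ Φ : M ≃ₘ^1⟮𝓘(ℂ, Cm n), 𝓘(ℂ, Cm n)⟯ Cm n,
    (∀ i, ∃ (k : ℕ) (c : Fin k → M → ℂ), (∀ j, c j ∈ A) ∧ (∃ j, c j ≠ 0) ∧
      ∀ x, ∑ j, c j x * Φ x i ^ (j : ℕ) = 0) → P253Y.H2.UNI n μ

variable {F} {μ : Measure M} (T : F.TA μ) (d : ℝ → M → M → ℝ)

/-- polynomial curves -/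
structure TA.PC (f : ℂ → M) : Prop where
  hol : H1 n f univ
  ne : ∃ τ, f τ ≠ f 0
  tm : ∀ φ, F.Tm T.ga φ → ∃ C : ℝ, ∀ τ, φ (f τ) ≤ C * (1 + Real.log (1 + ‖τ‖))

/-- **DOMU** (block V) -/
def TA.DOMU : Prop := ∃ (Φ : M → ℝ) (C : ℝ), F.Tm T.ga Φ ∧ ∀ S, 0 < S → ∀ t ∈ Icc 0 S, ∀ x,
  F.ψ t x + (S - t) * F.u t x ≤ S * Φ x + C * (1 + S) ^ 2

/-- **UT** (from `Is.ys`, `LOW`, `ga_sub`): `u_t` is tame -/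
def TA.UT : Prop := ∀ t, 0 ≤ t → F.Tm T.ga (F.u t)

/-- **BALL** (block V): the supremum of a tame function over unit balls is tame -/
def TA.BALL : Prop := ∀ t, 0 < t → ∀ φ, F.Tm T.ga φ → ∃ φ', F.Tm T.ga φ' ∧
  ∀ x q, d t q x ≤ 1 → φ q ≤ φ' x

variable (F) in
/-- `u_1 ∘ f = (ν + o(1)) log |τ|²` -/
def IsNu (f : ℂ → M) (ν : ℝ) : Prop := ∀ η : ℝ, 0 < η → ∃ ρ : ℝ, ∀ τ : ℂ, ρ < ‖τ‖ →
  |F.u 1 (f τ) - ν * Real.log (‖τ‖ ^ 2)| ≤ η * Real.log ‖τ‖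

variable (F) in
/-- the conclusion of 5.1 -/
structure Curv (f : ℂ → M) (ν : ℝ) : Prop where
  nu : F.IsNu f ν
  R : ∀ η : ℝ, 0 < η → ∃ ρ : ℝ, ∀ τ : ℂ, ρ < ‖τ‖ → ∀ t ∈ Icc (1 / 2 : ℝ) 4, ∀ q,
    d 4 q (f τ) ≤ 1 → F.R t q ≤ η * Real.log ‖τ‖
  vel : ∃ C ρ : ℝ, ∀ τ : ℂ, ρ < ‖τ‖ → F.nv 1 (f τ) (d1 n f τ) ≤ ‖τ‖ ^ C
  mass : ∃ C : ℝ, ∀ t ∈ Icc (1 : ℝ) 4,
    ∫⁻ τ : ℂ, ENNReal.ofReal (F.rc t (f τ) (d1 n f τ)) ≤ ENNReal.ofReal C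

variable (F) in
/-- the conclusion of 5.3 -/
structure Frame (f : ℂ → M) (k : Fin n → ℝ) (θ : Fin n → ℂ → Cm n) : Prop where
  pos : ∀ i, 0 < k i
  le : ∀ i, k i ≤ 1
  hol : ∃ ρ : ℝ, ∀ i, Al f (θ i) {τ | ρ < ‖τ‖}
  met : ∀ η : ℝ, 0 < η → ∃ ρ : ℝ, ∀ τ : ℂ, ρ < ‖τ‖ → ∀ c : Cm n,
    ‖τ‖ ^ (-η) * wn k τ c ≤ F.nv 1 (f τ) (∑ i, c i • θ i τ) ∧
      F.nv 1 (f τ) (∑ i, c i • θ i τ) ≤ ‖τ‖ ^ η * wn k τ c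

/-- the slice of the tube -/
def sl (k : Fin n → ℝ) (ε : ℝ) (τ : ℂ) : Set (Cm n) := {y | ∀ i, ‖y i‖ < ‖τ‖ ^ (k i - ε)}

/-- the holomorphic tube along `f` (5.4) -/
structure TA.Tube (f : ℂ → M) (ν : ℝ) where
  k : Fin n → ℝ
  ε : ℝ
  ρ : ℝ
  Ξ : ℂ → Cm n → M
  ε_pos : 0 < ε
  ε_lt : ∀ i, ε < k i
  k_le : ∀ i, k i ≤ 1
  ρ_ge : 1 ≤ ρ
  hol : MDifferentiableOn 𝓘(ℂ, ℂ × Cm n) 𝓘(ℂ, Cm n) (fun q : ℂ × Cm n => Ξ q.1 q.2)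
    {q : ℂ × Cm n | ρ < ‖q.1‖ ∧ q.2 ∈ sl k ε q.1}
  zero : ∀ τ : ℂ, ρ < ‖τ‖ → Ξ τ 0 = f τ
  inj : ∀ τ : ℂ, ρ < ‖τ‖ → InjOn (Ξ τ) (sl k ε τ)
  met : ∀ η : ℝ, 0 < η → ∃ ρ' : ℝ, ∀ τ : ℂ, ρ' < ‖τ‖ → ∀ y ∈ sl k ε τ, ∀ v : Cm n,
    ‖τ‖ ^ (-η) * wn k τ v ≤ F.nv 1 (Ξ τ y) (dn (Ξ τ) y v) ∧
      F.nv 1 (Ξ τ y) (dn (Ξ τ) y v) ≤ ‖τ‖ ^ η * wn k τ v
  u : ∀ η : ℝ, 0 < η → ∃ ρ' : ℝ, ∀ τ : ℂ, ρ' < ‖τ‖ → ∀ y ∈ sl k ε τ,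
    |F.u 1 (Ξ τ y) - ν * Real.log (‖τ‖ ^ 2)| ≤ η * Real.log ‖τ‖
  tm : ∀ φ, F.Tm T.ga φ → ∃ C ρ' : ℝ, ∀ τ : ℂ, ρ' < ‖τ‖ → ∀ y ∈ sl k ε τ,
    φ (Ξ τ y) ≤ C * Real.log ‖τ‖

variable (F μ) in
/-- **G1** (3.5, block X): immersed charts and their multiplicity -/
def G1 : Prop := ∃ c c' C : ℝ, 0 < c ∧ 0 < c' ∧ c' ≤ 1 ∧ 1 ≤ C ∧
  ∀ (t s : ℝ) (x : M) (L : Mx n), 0 < t → 0 < s →
  (∀ q, d t q x ≤ s → s ^ 2 * F.R t q ≤ 1) → (∀ v, F.nv t x (L *ᵥ v) = ∑ i, ‖v i‖ ^ 2) →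
  ∃ Ψ : Cm n → M, Hn Ψ (ball 0 1) ∧ Ψ 0 = x ∧ (∀ v, dn Ψ 0 v = ((c * s : ℝ) : ℂ) • (L *ᵥ v)) ∧
    (∀ y ∈ ball (0 : Cm n) 1, d t (Ψ y) x ≤ s ∧ ∀ v, s ^ 2 * ‖v‖ ^ 2 ≤ C * F.nv t (Ψ y) (dn Ψ y v) ∧
      F.nv t (Ψ y) (dn Ψ y v) ≤ C * (s ^ 2 * ‖v‖ ^ 2)) ∧
    ∀ G : M → ℝ≥0∞, Measurable G →
      (∫⁻ y in ball (0 : Cm n) c', G (Ψ y)) * F.vol μ t {q | d t q x < c' * s} ≤
        ENNReal.ofReal C * ∫⁻ q, G q ∂(F.vol μ t)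

/-- **EXIST** (section 4, block C) -/
def TA.EXIST : Prop := ∃ c ∈ T.A, c ≠ 0 ∧ ∀ p, c p ≠ 0 → ∃ f, T.PC f ∧ f 0 = p

/-- **CURV** (5.1, block C) -/
def TA.CURV : Prop := ∀ f, T.PC f → ∃ ν, F.Curv d f ν

/-- **FRAME** (5.3, block C) -/
def TA.FRAME : Prop := ∀ f ν, T.PC f → F.Curv d f ν → ∃ k θ, F.Frame f k θ

/-- **TUBE** (5.2, 5.4, block X) -/
def TA.TUBE : Prop := ∀ f ν k θ, T.PC f → F.Curv d f ν → F.Frame f k θ → Nonempty (T.Tube f ν)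

/-- every polynomial curve has a tube -/
def TA.TB : Prop := ∀ f, T.PC f → ∃ ν, F.IsNu f ν ∧ Nonempty (T.Tube f ν)

theorem TA.tb (h1 : T.CURV d) (h2 : T.FRAME d) (h3 : T.TUBE d) : T.TB := fun f hf => by
  obtain ⟨ν, hν⟩ := h1 f hf
  obtain ⟨k, θ, h⟩ := h2 f ν hf hν
  exact ⟨ν, hν.nu, h3 f ν k θ hf hν h⟩

/-- **DEG** (5.2, block C, from `TB`): the degree is bounded by `ν` -/
def TA.DEG : Prop := ∀ a ∈ T.A, ∃ c ∈ T.A, c ≠ 0 ∧ ∃ C : ℝ, ∀ f ν, T.PC f → F.IsNu f ν →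
  c (f 0) ≠ 0 → ∃ C' : ℝ, ∀ τ : ℂ, ‖a (f τ)‖ ≤ C' * (1 + ‖τ‖) ^ (C * (1 + ν))

/-- **END** (5.5-5.9, block D) -/
def TA.END : Prop := ∃ Φ : M ≃ₘ^1⟮𝓘(ℂ, Cm n), 𝓘(ℂ, Cm n)⟯ Cm n,
  ∀ i, ∃ (k : ℕ) (c : Fin k → M → ℂ), (∀ j, c j ∈ T.A) ∧ (∃ j, c j ≠ 0) ∧
    ∀ x, ∑ j, c j x * Φ x i ^ (j : ℕ) = 0

theorem TA.uni (h : T.END) : P253Y.H2.UNI n μ := by
  obtain ⟨Φ, hΦ⟩ := h
  exact T.fin Φ hΦ

end Flow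

end Vale.Agent.P253W
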