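import Vale.Agent.P253W.Defs

/-!
# P253W: the blocks and their assembly
-/

open scoped Manifold ContDiff Bundle ENNReal Topology
open Bundle IsManifold MeasureTheory Set Metric Filter Vale.Agent.P253.Mfd Vale.Agent.P253Z
open Vale.Agent.P272.K (Cm Chart)

noncomputable section

namespace Vale.Agent.P253W

variable {n : ℕ} {M : Type} [MetricSpace M] [ChartedSpace (Cm n) M]
  [RiemannianBundle fun x : M => TangentSpace 𝓘(ℝ, Cm n) x] [MeasurableSpace M]

/-- what is known about the flow before the Harnack inequality -/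
structure P1 (μ : Measure M) (F : Flow n M) : Prop where
  c : Ctx n μ
  is : F.Is
  ys : F.YS
  b1 : F.Bas1
  b2 : F.Bas2
  low : F.LOW

variable (n M) in
/-- block F -/
def BlF : Prop := ∃ φ : ℝ → M → ℝ, ∀ q, KRF n q φ

variable (n) in
/-- block T -/
def BlT (μ : Measure M) : Prop := BlF n M → ∃ F : Flow n M, F.Is ∧ F.YS ∧ Nonempty (F.TA μ)

variable (n M) in
/-- block V, the calculus of the flow -/
def BlB : Prop := ∀ F : Flow n M, F.Is → F.Bas1 ∧ F.Bas2

variable (n) in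
/-- block HK -/
def BlH (μ : Measure M) : Prop := ∀ F : Flow n M, F.Is → F.Bas1 → F.Bas2 →
  F.LOW ∧ F.SUPER ∧ F.L1 μ

variable (n) in
/-- block V, discs -/
def BlG (μ : Measure M) : Prop := ∀ F : Flow n M, P1 μ F → F.G0 ∧ F.LIP

variable (n) in
/-- block A -/
def BlA (μ : Measure M) : Prop := ∀ F : Flow n M, P1 μ F → F.TA μ → F.G0 → F.LIP → F.SUPER → F.ENV

variable (n) in
/-- block V, the Harnack inequality -/
def BlL (μ : Measure M) : Prop := ∀ F : Flow n M, P1 μ F → F.ENV → F.L1 μ → F.LYH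

variable [IsManifold 𝓘(ℝ, Cm n) ∞ M] [ConnectedSpace M] [NoncompactSpace M]

/-- what is known after the Harnack inequality -/
structure P2 {μ : Measure M} {F : Flow n M} (A : Fam F) (T : F.TA μ) : Prop extends P1 μ F where
  lyh : F.LYH
  s3a : F.S3a
  s3b : A.S3b μ
  dh : DH n

/-- the tools of section 3 -/
structure P3 {μ : Measure M} {F : Flow n M} (A : Fam F) (T : F.TA μ) : Prop extends P2 A T where
  ball : T.BALL A.d
  domu : T.DOMU
  ut : T.UT
  kpe : KPE n M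
  kpw : F.KPW
  tl : F.TL
  g1 : F.G1 μ A.d

variable (n) in
/-- block V, slices -/
def BlS (μ : Measure M) : Prop := ∀ F : Flow n M, P1 μ F → F.LYH →
  F.S3a ∧ ∃ A : Fam F, A.S3b μ

variable (n) in
/-- a statement which is proved from `P2` -/
def Of2 (μ : Measure M) (X : ∀ (F : Flow n M) (_ : Fam F) (_ : F.TA μ), Prop) : Prop :=
  ∀ (F : Flow n M) (A : Fam F) (T : F.TA μ), P2 A T → X F A T

variable (n) in
/-- a statement which is proved from `P3` -/
def Of3 (μ : Measure M) (X : ∀ (F : Flow n M) (_ : Fam F) (_ : F.TA μ), Prop) : Prop :=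
  ∀ (F : Flow n M) (A : Fam F) (T : F.TA μ), P3 A T → X F A T

variable (n) in
/-- all the blocks -/
structure Blocks (μ : Measure M) : Prop where
  f : BlF n M
  t : BlT n μ
  b : BlB n M
  h : BlH n μ
  g : BlG n μ
  a : BlA n μ
  l : BlL n μ
  s : BlS n μ
  dh : DH n
  ball : Of2 n μ fun _ A T => T.BALL A.d
  domu : Of2 n μ fun _ _ T => T.DOMU
  ut : Of2 n μ fun _ _ T => T.UT
  area : Of2 n μ fun F _ _ => F.AREA
  tl : Of2 n μ fun F _ _ => F.TL
  g1 : Of2 n μ fun F A _ => F.G1 μ A.d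
  tube : Of3 n μ fun _ A T => T.TUBE A.d
  exist : Of3 n μ fun _ _ T => T.EXIST
  curv : Of3 n μ fun _ A T => T.CURV A.d
  frame : Of3 n μ fun _ A T => T.FRAME A.d
  deg : Of3 n μ fun _ _ T => T.TB → T.DEG
  fin : Of3 n μ fun _ _ T => T.TB → T.EXIST → T.DEG → T.END

theorem uni_of {μ : Measure M} (c : Ctx n μ) (B : Blocks n μ) : P253Y.H2.UNI n μ := by
  obtain ⟨F, hI, hY, ⟨T⟩⟩ := B.t B.f
  obtain ⟨b1, b2⟩ := B.b F hI
  obtain ⟨low, sup, l1⟩ := B.h F hI b1 b2
  have p1 : P1 μ F := ⟨c, hI, hY, b1, b2, low⟩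
  obtain ⟨g0, lip⟩ := B.g F p1
  have lyh := B.l F p1 (B.a F p1 T g0 lip sup) l1
  obtain ⟨s3a, A, s3b⟩ := B.s F p1 lyh
  have p2 : P2 A T := ⟨p1, lyh, s3a, s3b, B.dh⟩
  have kpe := F.kpe T.kpa (B.area F A T p2)
  have p3 : P3 A T := ⟨p2, B.ball F A T p2, B.domu F A T p2, B.ut F A T p2, kpe, T.kpw kpe,
    B.tl F A T p2, B.g1 F A T p2⟩
  have tb := T.tb A.d (B.curv F A T p3) (B.frame F A T p3) (B.tube F A T p3)
  exact T.uni (B.fin F A T p3 tb (B.exist F A T p3) (B.deg F A T p3 tb))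

end Vale.Agent.P253W
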