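import Vale.Agent.P253Z.Spec

/-!
# P253W: the flow, discs in `T*M × ℂ`, and the interfaces of sections 1 and 2
-/

open scoped Manifold ContDiff Bundle ENNReal Topology ComplexConjugate ComplexOrder Matrix
open Bundle IsManifold MeasureTheory Set Metric Filter Vale.Agent.P253.Mfd Vale.Agent.P253Z
open Vale.Agent.P272.K (Cm dz dzb cHess jacM Chart)
open Vale.Agent.P253.R2.H451 (ContPsh WeakLevi levi2)

noncomputable section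

namespace Vale.Agent.P253W

/-- matrices -/
abbrev Mx (n : ℕ) : Type := Matrix (Fin n) (Fin n) ℂ

/-- `g^{j k̄} a_{j k̄}` -/
def trg {n : ℕ} (g a : Mx n) : ℝ := (g⁻¹ * a).trace.re

/-- the square of the norm of the covector `ξ` -/
def hq {n : ℕ} (g : Mx n) (ξ : Cm n) : ℝ := (star ξ ⬝ᵥ (g⁻¹ *ᵥ ξ)).re

variable {n : ℕ} {M : Type} [MetricSpace M] [ChartedSpace (Cm n) M]

/-- a function of time and space in a chart -/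
def ch (e : Chart n M) (f : ℝ → M → ℝ) (q : ℝ × Cm n) : ℝ := f q.1 (e.symm q.2)

variable (n) in
/-- smooth on `I × M` -/
def SmT (I : Set ℝ) (f : ℝ → M → ℝ) : Prop :=
  ∀ e : Chart n M, Hc e → ContDiffOn ℝ ∞ (ch e f) (I ×ˢ e.target)

/-- the complex Hessian in a chart -/
def hs (f : M → ℝ) (e : Chart n M) (z : Cm n) : Mx n := cHess (fun y => f (e.symm y)) z

/-- the time derivative -/
def dt (f : ℝ → M → ℝ) (t : ℝ) (x : M) : ℝ := deriv (fun s => f s x) t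

variable (n) in
/-- the preferred chart -/
abbrev pc (x : M) : Chart n M := chartAt (Cm n) x

/-- A covector at `x` is given by its components `ξ` in the preferred chart at `x`. These are its
components in the chart `e`. -/
def cv (e : Chart n M) (x : M) (ξ : Cm n) : Cm n := ξ ᵥ* jacM e (pc n x) x

variable (n M) in
/-- closed discs in `T*M × ℂ` with times at most `S` -/
structure Disc (S : ℝ) where
  f : ℂ → M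
  ξ : ℂ → Cm n
  ζ : ℂ → ℂ
  cf : ContinuousOn f (closedBall 0 1)
  hf : MDifferentiableOn 𝓘(ℂ, ℂ) 𝓘(ℂ, Cm n) f (ball 0 1)
  cξ : ∀ e : Chart n M, Hc e →
    ContinuousOn (fun τ => cv e (f τ) (ξ τ)) (closedBall 0 1 ∩ f ⁻¹' e.source)
  hξ : ∀ e : Chart n M, Hc e →
    DifferentiableOn ℂ (fun τ => cv e (f τ) (ξ τ)) (ball 0 1 ∩ f ⁻¹' e.source)
  ne : ∀ τ ∈ sphere (0 : ℂ) 1, ξ τ ≠ 0
  hζ : DiffContOnCl ℂ ζ (ball 0 1)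
  le : ∀ τ ∈ closedBall (0 : ℂ) 1, Real.exp (2 * (ζ τ).re) ≤ S

/-- the centre of the disc lies over `(t, x)` -/
def Disc.At {S : ℝ} (D : Disc n M S) (t : ℝ) (x : M) : Prop :=
  D.f 0 = x ∧ Real.exp (2 * (D.ζ 0).re) = t

variable [RiemannianBundle (fun x : M => TangentSpace 𝓘(ℝ, Cm n) x)]

/-! ### the flow before the canonical bundle is known to be trivial (output of block F) -/

/-- the metric `ω₀ - t Ric₀ + i∂∂̄φ_t` -/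
def g0 (φ : ℝ → M → ℝ) (t : ℝ) (e : Chart n M) (z : Cm n) : Mx n :=
  hm e z - (t : ℂ) • ric e z + hs (φ t) e z

variable (n) in
/-- `log (ω_t^n / ω₀^n)` -/
def lv (φ : ℝ → M → ℝ) (t : ℝ) (x : M) : ℝ :=
  Real.log ((g0 φ t (pc n x) (pc n x x)).det.re / vd (pc n x) (pc n x x))

variable (n) in
/-- the Kähler-Ricci flow for all times, in terms of its potential -/
structure KRF (o : M) (φ : ℝ → M → ℝ) : Prop where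
  sm : SmT n (Ici 0) φ
  zero : ∀ x, φ 0 x = 0
  pos : ∀ t, 0 ≤ t → ∀ e : Chart n M, Hc e → ∀ z ∈ e.target, (g0 φ t e z).PosDef
  le : ∀ t, 0 ≤ t → ∀ e : Chart n M, Hc e → ∀ z ∈ e.target, (hm e z - g0 φ t e z).PosSemidef
  eq : ∀ t, 0 < t → ∀ x, HasDerivAt (fun s => φ s x) (lv n φ t x) t
  anti : ∀ x, AntitoneOn (fun t => lv n φ t x) (Ici 0)
  ys : ∀ η : M → ℂ, IsSec n 1 η → ∀ S a b : ℝ, 0 < S → 0 < a → a ≤ 1 / 4 →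
    (∀ x, η x ≠ 0 → S * Real.log (nrm n 1 η x) ≤ a * (1 + dist x o) ^ 2 + b) →
    ∀ t, 0 ≤ t → ∀ x, η x ≠ 0 → S * Real.log (nrm n 1 η x) ≤
      φ t x + (S - t) * lv n φ t x + n * t + 6 * a * (1 + dist x o) ^ 2 + b

/-! ### the flow -/

/-- the data: base point, trivialisation of `K`, potential `ψ_t` with `ω_t = ω₀ - i∂∂̄ψ_t` -/
structure Flow (n : ℕ) (M : Type) where
  o : M
  Ω : M → ℂ
  ψ : ℝ → M → ℝ

namespace Flow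

variable (F : Flow n M)

/-- the metric at time `t` -/
def g (t : ℝ) (e : Chart n M) (z : Cm n) : Mx n := hm e z - hs (F.ψ t) e z

/-- the metric at time `t` in the preferred chart -/
def gx (t : ℝ) (x : M) : Mx n := F.g t (pc n x) (pc n x x)

/-- `u_t = log |Ω|²_t` -/
def u (t : ℝ) (x : M) : ℝ := Real.log (‖F.Ω x‖ ^ 2 / (F.gx t x).det.re)

/-- the Laplacian `g^{j k̄} ∂_j ∂_k̄` at time `t` -/
def lap (t : ℝ) (f : M → ℝ) (x : M) : ℝ := trg (F.gx t x) (hs f (pc n x) (pc n x x))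

/-- the scalar curvature -/
def R (t : ℝ) (x : M) : ℝ := F.lap t (F.u t) x

/-- `y = tr_t ω₀` -/
def y (t : ℝ) (x : M) : ℝ := trg (F.gx t x) (hm (pc n x) (pc n x x))

/-- `H_t(x, ξ) = |ξ|²_t` -/
def H (t : ℝ) (x : M) (ξ : Cm n) : ℝ := hq (F.gx t x) ξ

/-- `r = d(o, x)` -/
def r (x : M) : ℝ := dist x F.o

/-- the function `G = log H_t`, `t = exp (2 Re ζ)`, on `T*M × ℂ` in the chart `e` -/
def G (e : Chart n M) (q : Cm n × Cm n × ℂ) : ℝ :=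
  Real.log (hq (F.g (Real.exp (2 * q.2.2.re)) e q.1) q.2.1)

/-- the properties of the flow (blocks F and T) -/
structure Is : Prop where
  sec : IsSec n 1 F.Ω
  ne : ∀ x, F.Ω x ≠ 0
  sm : SmT n (Ici 0) F.ψ
  zero : ∀ x, F.ψ 0 x = 0
  pos : ∀ t, 0 ≤ t → ∀ e : Chart n M, Hc e → ∀ z ∈ e.target, (F.g t e z).PosDef
  le : ∀ t, 0 ≤ t → ∀ e : Chart n M, Hc e → ∀ z ∈ e.target, (hs (F.ψ t) e z).PosSemidef
  eq : ∀ t, 0 < t → ∀ x, HasDerivAt (fun s => F.ψ s x) (F.u t x) t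
  mono : ∀ x, MonotoneOn (fun t => F.u t x) (Ici 0)
  up : ∃ C : ℝ, ∀ x, F.u 0 x ≤ C * (1 + F.r x)
  ys : ∀ S a b : ℝ, 0 < S → 0 < a → a ≤ 1 / 4 →
    (∀ x, S * F.u 0 x ≤ a * (1 + F.r x) ^ 2 + b) → ∀ t, 0 ≤ t → ∀ x,
      F.ψ t x + (S - t) * F.u t x ≤ n * t + 6 * a * (1 + F.r x) ^ 2 + b

/-- **BAS1**: change of charts and smoothness -/
structure Bas1 : Prop where
  hs_ch : ∀ (f : M → ℝ) (e e' : Chart n M), Hc e → Hc e' → ∀ x ∈ e.source, x ∈ e'.source →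
    ContDiffAt ℝ 2 (fun y => f (e'.symm y)) (e' x) →
    hs f e (e x) = pb (jacM e e' x) (hs f e' (e' x))
  cv_self : ∀ (x : M) (ξ : Cm n), cv (pc n x) x ξ = ξ
  cv_ch : ∀ e e' : Chart n M, Hc e → Hc e' → ∀ x ∈ e.source, x ∈ e'.source → ∀ ξ : Cm n,
    cv e x ξ = cv e' x ξ ᵥ* jacM e e' x
  g_zero : ∀ (e : Chart n M) (z : Cm n), F.g 0 e z = hm e z
  g_ch : ∀ t, 0 ≤ t → ∀ e e' : Chart n M, Hc e → Hc e' → ∀ x ∈ e.source, x ∈ e'.source →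
    F.g t e (e x) = pb (jacM e e' x) (F.g t e' (e' x))
  g_sm : ∀ e : Chart n M, Hc e → ∀ j k,
    ContDiffOn ℝ ∞ (fun q : ℝ × Cm n => F.g q.1 e q.2 j k) (Ici 0 ×ˢ e.target)
  g_at : ∀ t, 0 ≤ t → ∀ e : Chart n M, Hc e → ∀ z ∈ e.target, ∀ j k,
    ContDiffAt ℝ ∞ (fun y => F.g t e y j k) z
  g_cl : ∀ t, 0 ≤ t → ∀ e : Chart n M, Hc e → ∀ z ∈ e.target, ∀ j k l,
    dz l (fun y => F.g t e y j k) z = dz j (fun y => F.g t e y l k) z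
  u_eq : ∀ t, 0 ≤ t → ∀ e : Chart n M, Hc e → ∀ z ∈ e.target,
    F.u t (e.symm z) = Real.log (‖co 1 F.Ω e z‖ ^ 2 / (F.g t e z).det.re)
  lap_eq : ∀ t, 0 ≤ t → ∀ (f : M → ℝ) (e : Chart n M), Hc e → ∀ z ∈ e.target,
    ContDiffAt ℝ 2 (fun y => f (e.symm y)) z → F.lap t f (e.symm z) = trg (F.g t e z) (hs f e z)
  y_eq : ∀ t, 0 ≤ t → ∀ e : Chart n M, Hc e → ∀ z ∈ e.target,
    F.y t (e.symm z) = trg (F.g t e z) (hm e z)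
  H_eq : ∀ t, 0 ≤ t → ∀ e : Chart n M, Hc e → ∀ x ∈ e.source, ∀ ξ : Cm n,
    F.H t x ξ = hq (F.g t e (e x)) (cv e x ξ)
  sm_at : ∀ f : ℝ → M → ℝ, SmT n (Ici 0) f → ∀ t, 0 ≤ t → Sm n (f t)
  sm_cont : ∀ f : ℝ → M → ℝ, SmT n (Ici 0) f →
    ContinuousOn (Function.uncurry f) (Ici 0 ×ˢ univ)
  u_sm : SmT n (Ici 0) F.u
  R_sm : SmT n (Ici 0) F.R
  y_sm : SmT n (Ici 0) F.y
  G_sm : ∀ e : Chart n M, Hc e → ContDiffOn ℝ ∞ (F.G e) {q | q.1 ∈ e.target ∧ q.2.1 ≠ 0}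

/-- **BAS2**: evolution equations and elementary inequalities -/
structure Bas2 : Prop where
  u_hs : ∀ t, 0 ≤ t → ∀ e : Chart n M, Hc e → ∀ z ∈ e.target,
    hs (F.u t) e z = cHess (fun y => -Real.log (F.g t e y).det.re) z
  g_t : ∀ t, 0 < t → ∀ e : Chart n M, Hc e → ∀ z ∈ e.target, ∀ j k,
    HasDerivAt (fun s => F.g s e z j k) (-hs (F.u t) e z j k) t
  u_t : ∀ t, 0 < t → ∀ x, HasDerivAt (fun s => F.u s x) (F.R t x) t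
  H_t : ∀ t, 0 < t → ∀ (x : M) (ξ : Cm n), HasDerivAt (fun s => F.H s x ξ)
    (star ((F.gx t x)⁻¹ *ᵥ ξ) ⬝ᵥ (hs (F.u t) (pc n x) (pc n x x) *ᵥ ((F.gx t x)⁻¹ *ᵥ ξ))).re t
  R_nonneg : ∀ t, 0 ≤ t → ∀ x, 0 ≤ F.R t x
  lap_psi : ∀ t, 0 ≤ t → ∀ x, F.lap t (F.ψ t) x = F.y t x - n
  y_ge : ∀ t, 0 ≤ t → ∀ x, (n : ℝ) ≤ F.y t x
  y_le : ∀ t, 0 ≤ t → ∀ x, F.y t x ≤ n * Real.exp (F.u t x - F.u 0 x)
  H_pos : ∀ t, 0 ≤ t → ∀ (x : M) (ξ : Cm n), ξ ≠ 0 → 0 < F.H t x ξ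
  H_ge : ∀ t, 0 ≤ t → ∀ (x : M) (ξ : Cm n), F.H 0 x ξ ≤ F.H t x ξ
  H_le : ∀ t, 0 ≤ t → ∀ (x : M) (ξ : Cm n), F.H t x ξ ≤ Real.exp (F.u t x - F.u 0 x) * F.H 0 x ξ
  psi_le : ∀ t, 0 ≤ t → ∀ x, t * F.u 0 x ≤ F.ψ t x ∧ F.ψ t x ≤ t * F.u t x
  psi_up : ∃ C : ℝ, ∀ t, 0 ≤ t → ∀ x, F.ψ t x ≤ C * (1 + t) * (1 + t + F.r x)

/-- **LOW** (1.4, block HK) -/
def LOW : Prop := ∃ b : ℝ, 1 / 2 ≤ b ∧ b < 1 ∧ ∀ S : ℝ, ∃ C : ℝ, ∀ t ∈ Icc 0 S, ∀ x,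
  -(C * (1 + F.r x) ^ (2 * b)) ≤ F.ψ t x

/-- **SUPER** (1.6, 1.7, block HK): the barriers -/
def SUPER : Prop := ∀ S : ℝ, 0 < S → ∃ (P : ℝ → M → ℝ) (c : ℝ), 0 < c ∧ SmT n (Ico 0 (S + 1)) P ∧
  (∀ t ∈ Icc 0 S, ∀ x, c * (1 + F.r x) ^ 2 ≤ P t x) ∧
  (∀ t ∈ Ioc 0 S, ∀ x, F.y t x / 2 + F.lap t (P t) x ≤ dt P t x) ∧
  ∀ ρ₀ k ε : ℝ, 0 < ε → ∃ ρ : ℝ, ρ₀ ≤ ρ ∧ ∃ X : ℝ → M → ℝ, SmT n (Ico 0 (S + 1)) X ∧
    (∀ t ∈ Icc 0 S, ∀ x, 0 ≤ X t x) ∧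
    (∀ t ∈ Ioc 0 S, ∀ x, F.r x ≤ 3 * ρ → F.lap t (X t) x ≤ dt X t x) ∧
    (∀ t ∈ Icc 0 S, ∀ x, F.r x ≤ ρ₀ → X t x ≤ ε) ∧
    ∀ t ∈ Icc 0 S, ∀ x, ρ ≤ F.r x → F.r x ≤ 3 * ρ →
      k * (1 + Real.log (1 + F.y t x)) ≤ ε * P t x + X t x

/-- the mean of `G` over the boundary of a disc -/
def γ {S : ℝ} (D : Disc n M S) : ℝ :=
  Real.circleAverage (fun τ => Real.log (F.H (Real.exp (2 * (D.ζ τ).re)) (D.f τ) (D.ξ τ))) 0 1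

/-- `Z = Σ p_i p_i^* exp (-γ_i)` -/
def Z {S : ℝ} {m : ℕ} (D : Fin m → Disc n M S) : Mx n :=
  ∑ i, (Real.exp (-F.γ (D i)) : ℂ) • Matrix.vecMulVec ((D i).ξ 0) (star ((D i).ξ 0))

/-- **G0** (block V): `log H_0` is plurisubharmonic and `H_0 ≤ H_t` -/
def G0 : Prop := ∀ (S : ℝ) (D : Disc n M S), D.ξ 0 ≠ 0 → Real.log (F.H 0 (D.f 0) (D.ξ 0)) ≤ F.γ D

/-- **LIP** (2.3, block V) -/
def LIP : Prop := ∀ (S : ℝ) (D : Disc n M S) (t t' : ℝ) (x : M) (ε : ℝ), D.At t x → D.ξ 0 ≠ 0 →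
  t < t' → t' < S → 0 < ε → ∃ D' : Disc n M S, D'.At t' x ∧ D'.ξ 0 = D.ξ 0 ∧
    F.γ D' ≤ F.γ D + Real.log (t' / t) / Real.log (S / t) * (F.u S x - F.u 0 x) + ε

/-- the envelope (output of block A, 2.2-2.8) -/
structure Env (S : ℝ) (l : ℝ → M → ℝ) : Prop where
  lo : ∀ t ∈ Ioo 0 S, ∀ x, F.u 0 x ≤ l t x
  up : ∀ t ∈ Ioo 0 S, ∀ (x : M) (D : Fin n → Disc n M S), (∀ i, (D i).At t x) →
    0 < (F.Z D).det.re → l t x ≤ Real.log (‖F.Ω x‖ ^ 2 / (F.Z D).det.re)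
  lip : ∀ (x : M) (t t' : ℝ), 0 < t → t < t' → t' < S →
    l t' x ≤ l t x + n * (Real.log (t' / t) / Real.log (S / t) * (F.u S x - F.u 0 x))
  visc : ∀ e : Chart n M, Hc e → ∀ (t : ℝ) (z : Cm n), t ∈ Ioo 0 S → z ∈ e.target →
    ∀ (φ : ℝ × Cm n → ℝ) (δ : ℝ), ContDiff ℝ ∞ φ → 0 < δ →
    (∀ q ∈ ball (t, z) δ, φ q + dist q (t, z) ^ 4 ≤ ch e l q) →
    (∀ ε : ℝ, 0 < ε → ∃ q ∈ ball (t, z) ε, ch e l q < φ q + ε) →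
    ∀ B : Mx n, B.PosSemidef → ((F.g t e z)⁻¹ - B).PosSemidef →
      Real.exp (φ (t, z) - F.u t (e.symm z)) * (B * cHess (fun w => φ (t, w)) z).trace.re ≤
        deriv (fun s => φ (s, z)) t

/-- **ENV** (block A) -/
def ENV : Prop := ∀ S : ℝ, 0 < S → ∃ l, F.Env S l

/-- **LYH**: `G` is plurisubharmonic -/
def LYH : Prop := ∀ e : Chart n M, Hc e → ∀ q : Cm n × Cm n × ℂ, q.1 ∈ e.target → q.2.1 ≠ 0 →
  ∀ V, 0 ≤ levi2 (F.G e) q V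

variable [MeasurableSpace M]

/-- `∂_t ((e^v - 1) ω_t^n) ≤ n ω_t^(n-1) i∂∂̄v` in the sense of distributions on `(0, S) × M` -/
def Dist (μ : Measure M) (S : ℝ) (v : ℝ → M → ℝ) : Prop :=
  ∀ (χ : ℝ → M → ℝ) (a b : ℝ) (K : Set M), SmT n univ χ → (∀ t x, 0 ≤ χ t x) → 0 < a → b < S →
    IsCompact K → (∀ t x, χ t x ≠ 0 → t ∈ Icc a b ∧ x ∈ K) →
    0 ≤ ∫ q : ℝ × M, (dt χ q.1 q.2 * (Real.exp (v q.1 q.2) - 1) +
      v q.1 q.2 * F.lap q.1 (χ q.1) q.2) * Real.exp (F.u 0 q.2 - F.u q.1 q.2) ∂(volume.prod μ)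

/-- **L1** (2.9, block HK) -/
def L1 (μ : Measure M) : Prop := ∀ (S : ℝ) (v : ℝ → M → ℝ), Measurable (Function.uncurry v) →
  (∀ t ∈ Ioo 0 S, ∀ x, 0 ≤ v t x ∧ v t x ≤ F.u t x - F.u 0 x) → F.Dist μ S v →
  ∀ᵐ q : ℝ × M ∂(volume.prod μ), q.1 ∈ Ioo 0 S → v q.1 q.2 = 0

/-- **VD** (2.9, block V): from viscosity to distributions -/
def VD (μ : Measure M) : Prop := ∀ (S : ℝ) (l : ℝ → M → ℝ), F.Env S l → ∃ v : ℝ → M → ℝ,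
  Measurable (Function.uncurry v) ∧
  (∀ t ∈ Ioo 0 S, ∀ x, F.u t x - l t x ≤ v t x ∧ v t x ≤ F.u t x - F.u 0 x) ∧ F.Dist μ S v

end Flow

end Vale.Agent.P253W
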