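import Vale.Agent.P253W.Flow
import Vale.Agent.P272.K.C2.LogDet

/-!
# P253W: time slices, the matrix Harnack inequality, the output of section 3
-/

open scoped Manifold ContDiff Bundle ENNReal Topology ComplexConjugate ComplexOrder Matrix
open Bundle IsManifold MeasureTheory Set Metric Filter Vale.Agent.P253.Mfd Vale.Agent.P253Z
open Vale.Agent.P272.K (Cm dz dzb cHess jacM Chart)
open Vale.Agent.P272.K.C2 (DM RM)

noncomputable section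

namespace Vale.Agent.P253W

/-! ### local flows -/

section loc

variable {n : ℕ}

/-- `A(v, v̄)` -/
def qf (A : Mx n) (v : Cm n) : ℝ := (v ⬝ᵥ (A *ᵥ star v)).re

/-- the Ricci form of the metric `W` -/
def rho (W : Cm n → Mx n) (z : Cm n) : Mx n := cHess (fun y => -Real.log (W y).det.re) z

/-- `∂_X W` -/
def DX (X : Cm n) (W : Cm n → Mx n) (z : Cm n) : Mx n := ∑ k, X k • DM k W z

/-- the curvature `R(X, X̄, ·, ·)` -/
def Kxx (W : Cm n → Mx n) (z X : Cm n) : Mx n := ∑ l, ∑ k, (X k * conj (X l)) • RM k l W z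

/-- the bisectional curvature `R(X, X̄, a, ā)` -/
def bk (W : Cm n → Mx n) (z X a : Cm n) : ℝ := qf (Kxx W z X) a

/-- `t ∇_X Ric` -/
def Kxt (W : ℝ → Cm n → Mx n) (t : ℝ) (z X : Cm n) : Mx n :=
  (t : ℂ) • (DX X (rho (W t)) z - DX X (W t) z * (W t z)⁻¹ * rho (W t) z)

/-- `t Ric + t² ∂_t Ric + t² Ric²` -/
def Ktt (W : ℝ → Cm n → Mx n) (t : ℝ) (z : Cm n) : Mx n :=
  (t : ℂ) • rho (W t) z + ((t ^ 2 : ℝ) : ℂ) • (Matrix.of fun j k => deriv (fun s => rho (W s) z j k) t) +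
    ((t ^ 2 : ℝ) : ℂ) • (rho (W t) z * (W t z)⁻¹ * rho (W t) z)

/-- a Kähler-Ricci flow on `(0, ∞) × U` which satisfies the matrix Harnack inequality -/
structure LF (U : Set (Cm n)) (W : ℝ → Cm n → Mx n) : Prop where
  op : IsOpen U
  sm : ∀ j k, ContDiffOn ℝ ∞ (fun q : ℝ × Cm n => W q.1 q.2 j k) (Ioi 0 ×ˢ U)
  pos : ∀ t, 0 < t → ∀ z ∈ U, (W t z).PosDef
  cl : ∀ t, 0 < t → ∀ z ∈ U, ∀ j k l, dz l (fun y => W t y j k) z = dz j (fun y => W t y l k) z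
  eq : ∀ t, 0 < t → ∀ z ∈ U, ∀ j k, HasDerivAt (fun s => W s z j k) (-rho (W t) z j k) t
  mh : ∀ t, 0 < t → ∀ z ∈ U, ∀ (X : Cm n) (c : ℂ), (Kxx (W t) z X + conj c • Kxt W t z X +
    c • (Kxt W t z X)ᴴ + (c * conj c) • Ktt W t z).PosSemidef

/-- **DH** (3.6): the directional Harnack inequality. `V` is parallel along `c` at time `t`. -/
def DH (n : ℕ) : Prop := ∃ C : ℝ, 1 ≤ C ∧ ∀ (U : Set (Cm n)) (W : ℝ → Cm n → Mx n), LF U W →
  ∀ (t d K : ℝ) (N : ℕ) (c c' V V' : ℝ → Cm n), 0 < t → 0 ≤ d → 1 ≤ K → 1 ≤ N →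
    ContinuousOn c' (Icc 0 d) →
    (∀ s ∈ Icc 0 d, c s ∈ U ∧ HasDerivWithinAt c (c' s) (Icc 0 d) s ∧
      HasDerivWithinAt V (V' s) (Icc 0 d) s ∧ qf (W t (c s)) (c' s) ≤ 1 ∧
      V' s ᵥ* W t (c s) + V s ᵥ* DX (c' s) (W t) (c s) = 0 ∧
      ∀ t' ∈ Icc t (t * Real.exp (1 / K)), t' * trg (W t' (c s)) (rho (W t') (c s)) ≤ K) →
    C * N * d * √(K / t) ≤ 1 / 2 → ∀ s ∈ Icc 0 d, t * qf (rho (W t) (c s)) (V s) ≤
      C * N * K * (qf (W t (c 0)) (V 0) - qf (W (t * Real.exp (1 / K)) (c 0)) (V 0)) +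
        (C * N * d * √(K / t)) ^ N * K * qf (W t (c 0)) (V 0)

end loc

/-! ### another metric on the same manifold -/

section wm

variable {n : ℕ} {M : Type} [MetricSpace M] [ChartedSpace (Cm n) M] [IsManifold 𝓘(ℝ, Cm n) ∞ M]

variable (n M) in
/-- smooth Riemannian metrics on `M` -/
abbrev Rm : Type := ContMDiffRiemannianMetric 𝓘(ℝ, Cm n) ∞ (Cm n)
  (fun x : M => TangentSpace 𝓘(ℝ, Cm n) x)

/-- `M` with the metric `g` -/
def Wm (_ : Rm n M) : Type := M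

/-- the distance of `g` -/
@[reducible] def Wm.ms [ConnectedSpace M] (g : Rm n M) : MetricSpace M :=
  letI : RiemannianBundle fun x : M => TangentSpace 𝓘(ℝ, Cm n) x := ⟨g.toRiemannianMetric⟩
  haveI : IsContinuousRiemannianBundle (Cm n) fun x : M => TangentSpace 𝓘(ℝ, Cm n) x :=
    ⟨g.inner, g.contMDiff.continuous, fun _ _ _ => rfl⟩
  letI E : EMetricSpace M := EMetricSpace.ofRiemannianMetric 𝓘(ℝ, Cm n) M
  @EMetricSpace.toMetricSpace M E fun x y => by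
    have h1 : IsClopen (@Metric.eball M E.toPseudoEMetricSpace.toEDist y ⊤) :=
      ⟨@Metric.isClosed_eball_top M E.toPseudoEMetricSpace y,
        @Metric.isOpen_eball M E.toPseudoEMetricSpace y ⊤⟩
    have h3 := h1.eq_univ ⟨y, @Metric.mem_eball_self M E.toPseudoEMetricSpace y ⊤ (by simp)⟩
    have h4 : x ∈ @Metric.eball M E.toPseudoEMetricSpace.toEDist y ⊤ := h3 ▸ mem_univ x
    exact ne_of_lt h4

variable [ConnectedSpace M] (g : Rm n M)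

instance : MetricSpace (Wm g) := Wm.ms (M := M) g
instance : ChartedSpace (Cm n) (Wm g) := ‹ChartedSpace (Cm n) M›
instance : IsManifold 𝓘(ℝ, Cm n) ∞ (Wm g) := ‹IsManifold 𝓘(ℝ, Cm n) ∞ M›
instance [IsManifold 𝓘(ℂ, Cm n) 1 M] : IsManifold 𝓘(ℂ, Cm n) 1 (Wm g) :=
  ‹IsManifold 𝓘(ℂ, Cm n) 1 M›
instance : RiemannianBundle fun x : Wm g => TangentSpace 𝓘(ℝ, Cm n) x := ⟨g.toRiemannianMetric⟩
instance : IsContMDiffRiemannianBundle 𝓘(ℝ, Cm n) ∞ (Cm n)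
    fun x : Wm g => TangentSpace 𝓘(ℝ, Cm n) x := ⟨g.inner, g.contMDiff, fun _ _ _ => rfl⟩
instance : IsRiemannianManifold 𝓘(ℝ, Cm n) (Wm g) := ⟨fun _ _ => rfl⟩
instance : ConnectedSpace (Wm g) := ‹ConnectedSpace M›
instance [NoncompactSpace M] : NoncompactSpace (Wm g) := ‹NoncompactSpace M›
instance [SimplyConnectedSpace M] : SimplyConnectedSpace (Wm g) :=
  ‹SimplyConnectedSpace M›
instance [MeasurableSpace M] : MeasurableSpace (Wm g) := ‹MeasurableSpace M›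
instance [MeasurableSpace M] [BorelSpace M] : BorelSpace (Wm g) := ‹BorelSpace M›

end wm

/-! ### the library for nonnegative bisectional curvature -/

section lib

variable {n : ℕ} {M : Type} [MetricSpace M] [ChartedSpace (Cm n) M]
  [RiemannianBundle (fun x : M => TangentSpace 𝓘(ℝ, Cm n) x)] [MeasurableSpace M]

variable (n) in
/-- what is known about a complete Kähler manifold of nonnegative bisectional curvature -/
structure All0 (μ : Measure M) : Prop where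
  a : B1a n M
  b : B1b n M
  v : B3 n μ
  vol : IsVol n μ
  bk : ∀ e : Chart n M, Hc e → ∀ z ∈ e.target, ∀ X a, 0 ≤ bk (hm e) z X a
  ric : ∀ e : Chart n M, Hc e → ∀ z ∈ e.target, (ric e z).PosSemidef
  exh : EXH n M
  bg : BG n μ
  tc : TC n M
  rb : RB n M
  hor : HOR n μ
  hj : HJ n μ
  sch : SCH n M
  mv : MV n μ

end lib

/-! ### slices -/

variable {n : ℕ} {M : Type} [MetricSpace M] [ChartedSpace (Cm n) M] [IsManifold 𝓘(ℝ, Cm n) ∞ M]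
  [ConnectedSpace M] [RiemannianBundle (fun x : M => TangentSpace 𝓘(ℝ, Cm n) x)]

/-- the Jacobian matrix at `z` of a map `Φ : ℂⁿ → M`, in the preferred chart at `Φ z` -/
def jm (Φ : Cm n → M) (z : Cm n) : Mx n :=
  Matrix.of fun p i => dz i (fun y => pc n (Φ z) (Φ y) p) z

/-- the Riemannian metrics of the flow -/
structure Fam (F : Flow n M) where
  G : ℝ → Rm n M
  hm_eq : ∀ t, 0 ≤ t → ∀ e : Chart n M, Hc e → ∀ z ∈ e.target, hm (M := Wm (G t)) e z = F.g t e z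
  kahler : ∀ t, 0 ≤ t → IsKahler (Cm n) (Wm (G t))

/-- the distance at time `t` -/
def Fam.d {F : Flow n M} (A : Fam F) (t : ℝ) (x y : M) : ℝ := dist (α := Wm (A.G t)) x y

namespace Flow

variable (F : Flow n M)

omit [IsManifold 𝓘(ℝ, Cm n) ∞ M] [ConnectedSpace M]

/-- the pull-back of the metric at time `t` -/
def pull (Φ : Cm n → M) (t : ℝ) (z : Cm n) : Mx n := pb (jm Φ z) (F.gx t (Φ z))

/-- the Ricci form at time `t` in the preferred chart -/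
def ρx (t : ℝ) (x : M) : Mx n := hs (F.u t) (pc n x) (pc n x x)

/-- the volume at time `t` -/
def vol [MeasurableSpace M] (μ : Measure M) (t : ℝ) : Measure M :=
  μ.withDensity fun x => ENNReal.ofReal (Real.exp (F.u 0 x - F.u t x))

/-- **S3a** (3.1): pointwise consequences of `LYH` -/
structure S3a : Prop where
  lf : ∀ e : Chart n M, Hc e → LF e.target fun t => F.g t e
  lfp : ∀ (U : Set (Cm n)) (Φ : Cm n → M), IsOpen U → MDifferentiableOn 𝓘(ℂ, Cm n) 𝓘(ℂ, Cm n) Φ U →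
    (∀ z ∈ U, (jm Φ z).det ≠ 0) → LF U (F.pull Φ) ∧ ∀ t, 0 < t → ∀ z ∈ U,
      rho (F.pull Φ t) z = pb (jm Φ z) (F.ρx t (Φ z)) ∧
      trg (F.pull Φ t z) (rho (F.pull Φ t) z) = F.R t (Φ z)
  bk : ∀ t, 0 ≤ t → ∀ e : Chart n M, Hc e → ∀ z ∈ e.target, ∀ X a,
    0 ≤ bk (F.g t e) z X a ∧ bk (F.g t e) z X a ≤ qf (F.g t e z) X * qf (hs (F.u t) e z) a
  ric_pos : ∀ t, 0 ≤ t → ∀ e : Chart n M, Hc e → ∀ z ∈ e.target, (hs (F.u t) e z).PosDef
  ric_le : ∀ t, 0 ≤ t → ∀ e : Chart n M, Hc e → ∀ z ∈ e.target,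
    ((F.R t (e.symm z) : ℂ) • F.g t e z - hs (F.u t) e z).PosSemidef
  g_anti : ∀ s t, 0 ≤ s → s ≤ t → ∀ e : Chart n M, Hc e → ∀ z ∈ e.target,
    (F.g s e z - F.g t e z).PosSemidef ∧
    ((Real.exp (F.u t (e.symm z) - F.u s (e.symm z)) : ℂ) • F.g t e z - F.g s e z).PosSemidef
  R_pos : ∀ t, 0 ≤ t → ∀ x, 0 < F.R t x
  R_mono : ∀ x, MonotoneOn (fun t => t * F.R t x) (Ici 0)
  u_cvx : ∀ x, ConvexOn ℝ univ fun σ => F.u (Real.exp σ) x
  H_cvx : ∀ (x : M) (ξ : Cm n), ξ ≠ 0 → ConvexOn ℝ univ fun σ => Real.log (F.H (Real.exp σ) x ξ)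
  grad : ∀ t, 0 < t → ∀ e : Chart n M, Hc e → ∀ z ∈ e.target, ∀ X : Cm n,
    ‖∑ k, X k * dz k (fun y => ((t * F.R t (e.symm y) : ℝ) : ℂ)) z‖ ^ 2 ≤
      qf (hs (F.u t) e z) X * (t * deriv (fun s => s * F.R s (e.symm z)) t)
  decay : ∀ K, IsCompact K → ∃ c : ℝ, 0 < c ∧ ∀ t, 1 ≤ t → ∀ x ∈ K, ∀ ξ,
    t ^ c * F.H 0 x ξ ≤ F.H t x ξ
  u_lin : ∀ x, ∃ C : ℝ, ∀ t, 0 ≤ t → F.u t x ≤ C * (1 + t) ∧ F.R t x ≤ C
  R_up : ∃ b : ℝ, 1 / 2 ≤ b ∧ b < 1 ∧ ∀ S : ℝ, ∃ C : ℝ, ∀ t ∈ Icc 0 S, ∀ x,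
    F.u t x ≤ C * (1 + F.r x) ^ (2 * b) ∧ t * F.R t x ≤ C * (1 + F.r x) ^ (2 * b)

end Flow

/-- **S3b** (3.1, 3.2): the slices -/
structure Fam.S3b [NoncompactSpace M] [MeasurableSpace M] {F : Flow n M} (A : Fam F)
    (μ : Measure M) : Prop where
  nn : ∀ t, 0 ≤ t → ∀ x : Wm (A.G t), NonnegBisectionalAt (Cm n) x
  cpl : ∀ t, 0 ≤ t → CompleteSpace (Wm (A.G t))
  all : ∀ t, 0 ≤ t → All0 (M := Wm (A.G t)) n (F.vol μ t)
  d_zero : ∀ x y, A.d 0 x y = dist x y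
  d_anti : ∀ s t, 0 ≤ s → s ≤ t → ∀ x y, A.d t x y ≤ A.d s x y
  far : ∀ S : ℝ, ∃ ρ : ℝ, ∀ t ∈ Icc 0 S, ∀ x, ρ ≤ F.r x → F.r x / 2 ≤ A.d t x F.o
  har : ∀ s t, 0 < s → s < t → ∀ x y,
    s * F.R s x ≤ t * F.R t y * Real.exp (A.d s x y ^ 2 / (s * Real.log (t / s)))

end Vale.Agent.P253W
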