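import Vale.Agent.P253W.Top1
import Vale.Agent.P253W.X.Hord2

/-!
# P253W: the uniformization theorem
-/

open scoped Manifold ContDiff
open Vale.Agent.P253Z
open Vale.Agent.P272.K (Cm)

namespace Vale.Agent.P253W

theorem allR (n : ℕ) : AllR n := fun _ _ _ _ _ _ _ _ _ _ _ _ _ _ _ c => rest_of c X.hord2

theorem yau {n : ℕ} {M : Type} [MetricSpace M] [ChartedSpace (Cm n) M] [Metr (Cm n) M]
    (hM : IsYau (Cm n) M) : Nonempty (M ≃ₘ^1⟮𝓘(ℂ, Cm n), 𝓘(ℂ, Cm n)⟯ Cm n) :=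
  yau_of_rest (allR n) hM

end Vale.Agent.P253W
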