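import Vale.Agent.P253W.FG.All
import Vale.Agent.P253W.HK.Main
import Vale.Agent.P253Y.H2.Main

/-!
# P253W: the conjecture from the remaining blocks
-/

open scoped Manifold ContDiff Bundle
open Bundle MeasureTheory Vale.Agent.P253Z
open Vale.Agent.P272.K (Cm)

namespace Vale.Agent.P253W

section

variable {n : ℕ} {M : Type} [MetricSpace M] [ChartedSpace (Cm n) M]
  [IsManifold 𝓘(ℂ, Cm n) 1 M] [IsManifold 𝓘(ℝ, Cm n) ∞ M]
  [RiemannianBundle (fun x : M => TangentSpace 𝓘(ℝ, Cm n) x)]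
  [IsContMDiffRiemannianBundle 𝓘(ℝ, Cm n) ∞ (Cm n) (fun x : M => TangentSpace 𝓘(ℝ, Cm n) x)]
  [IsRiemannianManifold 𝓘(ℝ, Cm n) M] [CompleteSpace M] [ConnectedSpace M] [NoncompactSpace M]
  [MeasurableSpace M] [BorelSpace M] {μ : Measure M}

theorem blH (c : Ctx n μ) : BlH n μ :=
  HK.blH_of c (FP.All.linx (all c).a (all c).b) (FP.All.int1 _)

omit [IsManifold 𝓘(ℂ, Cm n) 1 M]
  [IsContMDiffRiemannianBundle 𝓘(ℝ, Cm n) ∞ (Cm n) (fun x : M => TangentSpace 𝓘(ℝ, Cm n) x)]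
  [IsRiemannianManifold 𝓘(ℝ, Cm n) M] [CompleteSpace M] [BorelSpace M] in
variable (n) in
/-- the blocks T, V, A, X, Y, C, D -/
structure Rest (μ : Measure M) : Prop where
  t : BlT n μ
  b : BlB n M
  g : BlG n μ
  a : BlA n μ
  l : BlL n μ
  s : BlS n μ
  dh : DH n
  ball : Of2 n μ fun _ A T => T.BALL A.d
  domu : Of2 n μ fun _ _ T => T.DOMU
  ut : Of2 n μ fun _ _ T => T.UT
  area : Of2 n μ fun F _ _ => F.AREA
  tl : Of2 n μ fun F _ _ => F.TL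
  g1 : Of2 n μ fun F A _ => F.G1 μ A.d
  tube : Of3 n μ fun _ A T => T.TUBE A.d
  curv : Of3 n μ fun _ A T => T.CURV A.d
  frame : Of3 n μ fun _ A T => T.FRAME A.d
  fin : Of3 n μ fun _ _ T => T.TB → T.END

theorem Rest.uni (c : Ctx n μ) (B : Rest n μ) : P253Y.H2.UNI n μ := by
  obtain ⟨F, hI, hY, ⟨T⟩⟩ := B.t (blF c)
  obtain ⟨b1, b2⟩ := B.b F hI
  obtain ⟨low, sup, l1⟩ := blH c F hI b1 b2
  have p1 : P1 μ F := ⟨c, hI, hY, b1, b2, low⟩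
  obtain ⟨g0, lip⟩ := B.g F p1
  have lyh := B.l F p1 (B.a F p1 T g0 lip sup) l1
  obtain ⟨s3a, A, s3b⟩ := B.s F p1 lyh
  have p2 : P2 A T := ⟨p1, lyh, s3a, s3b, B.dh⟩
  have kpe := F.kpe T.kpa (B.area F A T p2)
  have p3 : P3 A T := ⟨p2, B.ball F A T p2, B.domu F A T p2, B.ut F A T p2, kpe, T.kpw kpe,
    B.tl F A T p2, B.g1 F A T p2⟩
  exact T.uni (B.fin F A T p3 (T.tb A.d (B.curv F A T p3) (B.frame F A T p3) (B.tube F A T p3)))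

end

/-- the blocks hold for all simply connected manifolds -/
def AllR (n : ℕ) : Prop :=
  ∀ (M : Type) [MetricSpace M] [ChartedSpace (Cm n) M] [IsManifold 𝓘(ℂ, Cm n) 1 M]
    [IsManifold 𝓘(ℝ, Cm n) ∞ M] [RiemannianBundle fun x : M => TangentSpace 𝓘(ℝ, Cm n) x]
    [IsContMDiffRiemannianBundle 𝓘(ℝ, Cm n) ∞ (Cm n) fun x : M => TangentSpace 𝓘(ℝ, Cm n) x]
    [IsRiemannianManifold 𝓘(ℝ, Cm n) M] [CompleteSpace M] [ConnectedSpace M] [NoncompactSpace M]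
    [MeasurableSpace M] [BorelSpace M] [SimplyConnectedSpace M] (μ : Measure M),
    Ctx n μ → Rest n μ

theorem yau_of_rest {n : ℕ} (h : AllR n) {M : Type} [MetricSpace M] [ChartedSpace (Cm n) M]
    [Metr (Cm n) M] (hM : IsYau (Cm n) M) :
    Nonempty (M ≃ₘ^1⟮𝓘(ℂ, Cm n), 𝓘(ℂ, Cm n)⟯ Cm n) :=
  P253Y.H2.yau_of (fun N _ _ _ _ _ _ _ _ _ _ _ _ μ c _ => (h N μ c).uni c) hM

end Vale.Agent.P253W
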