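import Vale.Agent.P253W.Top0
import Vale.Agent.P253W.A.Main
import Vale.Agent.P253W.T.Main
import Vale.Agent.P253W.V.Main
import Vale.Agent.P253W.C.Main
import Vale.Agent.P253W.D.Main
import Vale.Agent.P253W.X.Main0
import Vale.Agent.P253W.X.Cnt
import Vale.Agent.P253W.X.Inj
import Vale.Agent.P253W.X.Qif
import Vale.Agent.P253W.Y.Asm
import Vale.Agent.P253W.Y.G.All
import Vale.Agent.P253W.Y.Ch
import Vale.Agent.P253W.Y.Cht1
import Vale.Agent.P253W.Y.Cht2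
import Vale.Agent.P253W.Y.Fin
import Vale.Agent.P253W.Y.HordB
import Vale.Agent.P253W.Y.Horl
import Vale.Agent.P253W.Y.Inj
import Vale.Agent.P253W.Y.Inv
import Vale.Agent.P253W.Y.Jet
import Vale.Agent.P253W.Y.Lev
import Vale.Agent.P253W.Y.ModP
import Vale.Agent.P253W.Y.Nu
import Vale.Agent.P253W.Y.Pot
import Vale.Agent.P253W.Y.Sol
import Vale.Agent.P253W.Y.Sub
import Vale.Agent.P253W.Y.Tm
import Vale.Agent.P253W.Y.Tr
import Vale.Agent.P253W.Y.Unq
import Vale.Agent.P253W.Y.Uu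
import Vale.Agent.P253W.Y.Vs

/-!
# P253W: the blocks T, V, A, X, Y, C, D
-/

open scoped Manifold ContDiff Bundle
open Bundle MeasureTheory Vale.Agent.P253Z
open Vale.Agent.P272.K (Cm)

namespace Vale.Agent.P253W

theorem rowsY : Y.Rows :=
  ⟨Y.horl Y.hord, Y.geo, Y.nat, Y.lev, Y.pot, Y.vs, Y.mvn, Y.nu, Y.sol, Y.sub, Y.jet, Y.inv, Y.cht1,
    Y.cht2, fun n => X.inj (X.lift n), X.cnt, X.imm, X.bc, Y.tr, Y.unq, Y.ch, Y.tm, Y.met, Y.uu,
    Y.inj, Y.mod, Y.fin⟩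

variable {n : ℕ} {M : Type} [MetricSpace M] [ChartedSpace (Cm n) M]
  [IsManifold 𝓘(ℂ, Cm n) 1 M] [IsManifold 𝓘(ℝ, Cm n) ∞ M]
  [RiemannianBundle (fun x : M => TangentSpace 𝓘(ℝ, Cm n) x)]
  [IsContMDiffRiemannianBundle 𝓘(ℝ, Cm n) ∞ (Cm n) (fun x : M => TangentSpace 𝓘(ℝ, Cm n) x)]
  [IsRiemannianManifold 𝓘(ℝ, Cm n) M] [CompleteSpace M] [ConnectedSpace M] [NoncompactSpace M]
  [MeasurableSpace M] [BorelSpace M] {μ : Measure M}

theorem rest_of [SimplyConnectedSpace M] (c : Ctx n μ)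
    (h : 1 ≤ n → X.HORD (volume : Measure (Cm n))) : Rest n μ where
  t := T.blT c
  b := V.rows.blB c
  g := V.rows.blG
  a := blA
  l := V.rows.blL
  s := V.rows.blS
  dh := V.rows.dh n
  ball := V.rows.ball
  domu := V.rows.domu
  ut := T.utC
  area := V.rows.area
  tl := V.rows.tl
  g1 := X.g1_hord h
  tube := fun F A T p => Y.tube_of rowsY n M μ F A T p
  curv := C.curvC
  frame := C.frameC
  fin := D.blD

end Vale.Agent.P253W
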